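import Vale.Agent.P281.H723.ST.Defs
import Vale.Agent.P281.H716.LD.Defs

/-! P281: the definitions of `ST/Defs` unfold to the general ones. -/

namespace Vale.Agent.P281.ST

open scoped Manifold ContDiff Topology
open Filter Vale.Agent.P272.K Vale.Agent.P281.H716

variable {X Y Z F : Type} [TopologicalSpace X] [TopologicalSpace Y] [TopologicalSpace Z]
  [TopologicalSpace F] {n p d : ℕ} [ChartedSpace (Cm n) X] [ChartedSpace (Cm p) Y]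
  [ChartedSpace (Cm d) F]

theorem degAt_iff {ν N : ℕ} {H : Fin N → X → ℂ} {g : X → ℂ}
    {β : Chart n X → Cm n → Matrix (Fin n) (Fin n) ℂ} {z : X} :
    DegAt n ν H g β z ↔ H167.DegAt n ν H g β z := Iff.rfl

theorem hasRank_iff {ν N : ℕ} {k : Set X → ℕ} {ι : F → X} {S : Fin N → X → ℂ} :
    HasRank d ν k ι S ↔ H167.HasRankP d ν k ι S := Iff.rfl

theorem goodFix_iff {m ν N : ℕ} {k : Set X → ℕ} {ι : F → X} {S : Fin N → X → ℂ}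
    {β : Chart d F → Cm d → Matrix (Fin d) (Fin d) ℂ} :
    GoodFix n d m ν k ι S β ↔ H167.IsGoodFixP n d m ν k ι S β := Iff.rfl

theorem goodFix2_iff {m m' ν N N' : ℕ} {k k' : Set X → ℕ} {S : Fin N → X → ℂ}
    {S' : Fin N' → X → ℂ} {β : Chart n X → Cm n → Matrix (Fin n) (Fin n) ℂ} :
    GoodFix2 n m m' ν k k' S S' β ↔ KL.IsGoodFix2 m m' ν k k' S S' β := Iff.rfl

theorem logDiv_iff {f : X → Y} {𝒢 : Set (Set Y)} {Δ : Set X → ℝ} :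
    LogDiv n p f 𝒢 Δ ↔ LD.IsLogDivisorial (Cm n) (Cm p) f 𝒢 Δ := Iff.rfl

end Vale.Agent.P281.ST

namespace Vale.Agent.P281.ST

open scoped Manifold ContDiff Topology
open Filter Vale.Agent.P272.K Vale.Agent.P281.H716 Vale.Agent.P281.H167

theorem main_of (h : LD.MainPartLD) {n p d : ℕ} (hn : n = p + d) {X Z Y F : Type}
    [TopologicalSpace X] [T2Space X] [CompactSpace X] [ConnectedSpace X] [ChartedSpace (Cm n) X]
    [TopologicalSpace Z] [ChartedSpace (Cm n) Z]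
    [TopologicalSpace Y] [T2Space Y] [ConnectedSpace Y] [ChartedSpace (Cm p) Y]
    [TopologicalSpace F] [T2Space F] [CompactSpace F] [ConnectedSpace F] [ChartedSpace (Cm d) F]
    (hX : IsCplx n X) (hZ : IsCplx n Z) (hY : IsCplx p Y) (hF : IsCplx d F)
    (χ : Chart n X → Cm n → Matrix (Fin n) (Fin n) ℂ) (hχ : IsKahler χ)
    (Δ Δ₀ : Set X → ℝ) (hΔ : IsSNC n Δ) (hΔ₀ : ∀ D, ∃ q : ℚ, Δ₀ D = q ∧ 0 ≤ q ∧ q < 1)
    (hle : ∀ D, Δ₀ D ≤ Δ D) (t : ℝ) (ht : 0 < t) (ht1 : t ≤ 1)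
    {m N : ℕ} (hm : 0 < m) (k : Set X → ℕ) (hk : ∀ D, (k D : ℝ) = m * Δ₀ D)
    (S : Fin N → X → ℂ) (hS : Secs n m k S)
    {m' N' : ℕ} (hm' : 0 < m') (k' : Set X → ℕ)
    (hk' : ∀ D, (k' D : ℝ) = m' * (Δ₀ D + t * (Δ D - Δ₀ D))) (S' : Fin N' → X → ℂ)
    (hS' : Secs n m' k' S')
    (j : Z → X) (hj : BigOpen n j) (f : Z → Y) (hf : IsHol n p f)
    (Δ' : Set Z → ℝ) (hΔ' : IsSNC n Δ') (hres : J.IsRestriction j Δ Δ')
    (𝒢 : Set (Set Y)) (h𝒢 : LogDiv n p f 𝒢 Δ')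
    (B : Set Y → ℝ) (hB : ∀ G, B G ≤ base n p f Δ' G) (hB' : ∀ G, B G ≠ 0 → G ∈ 𝒢)
    (i : F → Z) (hi : SmoothFibre n p d f i) (hne : ∀ D, Δ D ≠ 0 → ∃ t, j (i t) ∉ D)
    (ν : ℕ) (hν : HasRank n ν (k + k') id (prodF S S'))
    (β : Chart n X → Cm n → Matrix (Fin n) (Fin n) ℂ) (hβ : IsSemiKahler β)
    (hgood : GoodFix2 n m m' ν k k' S S' β)
    (νF : ℕ) (hνF : HasRank d νF (k + k') (fun t => j (i t)) (prodF S S'))
    (βF : Chart d F → Cm d → Matrix (Fin d) (Fin d) ℂ) (hβF : IsSemiKahler βF)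
    (hNF : GoodFix n d (m + m') νF (k + k') (fun t => j (i t)) (prodF S S') βF) :
    kodR n d (fun t => j (i t)) Δ + kod p B ≤ kod n Δ := by
  haveI : IsManifold 𝓘(ℂ, Cm n) ω X := hX
  haveI : IsManifold 𝓘(ℂ, Cm n) ω Z := hZ
  haveI : IsManifold 𝓘(ℂ, Cm p) ω Y := hY
  haveI : IsManifold 𝓘(ℂ, Cm d) ω F := hF
  exact h n p d hn X Z Y F χ hχ Δ Δ₀ hΔ hΔ₀ hle t ht ht1 m N hm k hk S hS m' N' hm' k' hk' S' hS'
    j hj f hf Δ' hΔ' hres 𝒢 h𝒢 B hB hB' i hi hne ν hν β hβ hgood νF hνF βF hβF hNF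

end Vale.Agent.P281.ST
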